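import Vale.Agent.P022D.G.Defs

namespace Vale.Agent.P022F.G
export Vale.Agent.P022D.G (
  wS PS I2 FROB GAL2 wT LAT ZC SPAN Inert UNIQ sg Kil Wd GALA SUB PS0 Inv)
end Vale.Agent.P022F.G

namespace Vale.Agent.P022F.G.PS
export Vale.Agent.P022D.G.PS (
  mk i1 dc cyc toPS0)
end Vale.Agent.P022F.G.PS

namespace Vale.Agent.P022F.G.PS0
export Vale.Agent.P022D.G.PS0 (
  frT mk map opn frS tf)
end Vale.Agent.P022F.G.PS0
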